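import Crest.Agent.X212.Dic6.Fil
import Crest.Agent.X212.Sch47.Main
import Crest.Agent.X212.Orx52.Orb

-- ▼ part X212/Dic6/Cap
section

/-!
# Row 212, level zero (helper6): the capped surface, and the certificate from an essential map
-/

set_option autoImplicit false
set_option linter.unusedSectionVars false

open Set Filter Topology Function Metric
open scoped ContDiff Manifold
open Crest.GeometryTopology.DehnSurgery Crest.Agent.X212.Glue52 Crest.Agent.X212.Ext52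
open Crest.Agent.X212.Sm10 Crest.Agent.X212.Hel40 Crest.Agent.X212.Cab39 Crest.Agent.X212.St29
open Crest.Agent.X212.Sep15 (CM Box)

noncomputable section

namespace Crest.Agent.X212.Dic6

/-- the box of an angle on the zero filling -/
structure Bx (t : Tube) (r : ℝ) {R : CM 2} (b : R × ℝ → Yz t) (Φ : Yz t → Circle) (u : Circle) :
    Prop where
  pos : 0 < r
  box : Box b
  cont : Continuous Φ
  rg : range b = {y | Φ y ≠ 1}
  ang : ∀ p, Φ (b p) = cay p.2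
  it : ∀ a : Circle × ℂ, ‖a.2‖ < r → (Φ (t.it σ0 a) = -1 ↔ a.1 = u)

/-- the uncapped surface -/
def SF (t : Tube) (r : ℝ) (Φ : Yz t → Circle) : Set E3 := {p | p ∈ Out t (r / 2) ∧ Φ (iz t p) = -1}

variable {t : Tube} {r : ℝ} {R : CM 2} [Nonempty R] {b : R × ℝ → Yz t} {Φ : Yz t → Circle}
  {u : Circle}

/-- projection to the base -/
def pr (b : R × ℝ → Yz t) (y : Yz t) : R := (invFun b y).1

/-- the capping disc -/
def ep (b : R × ℝ → Yz t) (u : Circle) (ζ : ℂ) : R := pr b (t.it σ0 (u, ζ))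

namespace Bx
variable (h : Bx t r b Φ u)
include h

theorem r2 : 0 ≤ r / 2 := (half_pos h.pos).le

theorem rb {y : Yz t} (hy : Φ y = -1) : y ∈ range b := by
  rw [h.rg, mem_ofPred_eq, hy]
  exact fun e => by have := congrArg (fun z : Circle => (z : ℂ).re) e; norm_num at this

theorem b0 (x : R) : Φ (b (x, 0)) = -1 := (h.ang _).trans (Circle.ext (cay_eq_neg.2 rfl))

theorem i0 {ζ : ℂ} (a : ‖ζ‖ < r) : Φ (t.it σ0 (u, ζ)) = -1 := (h.it _ a).2 rfl

theorem p1 (p : R × ℝ) : pr b (b p) = p.1 := congrArg Prod.fst (leftInverse_invFun h.box.inj p)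

theorem p2 {y : Yz t} (hy : Φ y = -1) : b (pr b y, 0) = y := by
  obtain ⟨⟨x, s⟩, rfl⟩ := h.rb hy
  rw [h.p1, show s = 0 from cay_eq_neg.1 (congrArg Subtype.val ((h.ang (x, s)).symm.trans hy))]

theorem p3 {y : Yz t} (hy : Φ y = -1) : ContMDiffAt (𝓡 3) (𝓡 2) ∞ (pr b) y := by
  obtain ⟨p, rfl⟩ := h.rb hy
  exact contMDiffAt_of_comp (h.box.loc p) (contMDiffAt_fst.congr_of_eventuallyEq (.of_forall h.p1))

theorem bs : ContMDiff (𝓡 2) (𝓡 3) ∞ fun x => b (x, 0) :=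
  h.box.contMDiff.comp (contMDiff_id.prodMk contMDiff_const)

theorem e1 {ζ : ℂ} (a : ‖ζ‖ < r) : b (ep b u ζ, 0) = t.it σ0 (u, ζ) := h.p2 (h.i0 a)

theorem e2 {x : R} {a : Circle × ℂ} (ha : ‖a.2‖ < r) (e : t.it σ0 a = b (x, 0)) :
    a.1 = u ∧ ep b u a.2 = x := by
  have e1 := (h.it a ha).1 (e ▸ h.b0 x)
  exact ⟨e1, by rw [ep, ← e1, e, h.p1]⟩

theorem es {ζ : ℂ} (a : ‖ζ‖ < r) : ContMDiffAt 𝓘(ℝ, ℂ) (𝓡 2) ∞ (ep b u) ζ :=
  (h.p3 (h.i0 a)).comp ζ (((t.two σ0).ld_inr.contMDiff _).comp ζ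
    (contMDiffAt_const.prodMk contMDiffAt_id))

theorem ec {ρ : ℝ} (hρ : ρ < r) : ContinuousOn (ep b u) (closedBall 0 ρ) := fun _ a =>
  (h.es ((mem_closedBall_zero_iff.1 a).trans_lt hρ)).continuousAt.continuousWithinAt

theorem ei : InjOn (ep b u) (ball 0 r) := fun ζ a ξ c e =>
  congrArg Prod.snd ((t.two σ0).inr_injective (a₁ := (u, ζ)) (a₂ := (u, ξ))
    ((h.e1 (mem_ball_zero_iff.1 a)).symm.trans (e ▸ h.e1 (mem_ball_zero_iff.1 c))))

theorem eo {ρ : ℝ} (hρ : ρ ≤ r) : IsOpen (ep b u '' ball 0 ρ) := by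
  convert ((t.two σ0).isOpenEmbedding_inr.isOpenMap _ (isOpen_lt continuous_snd.norm
    continuous_const : IsOpen {a : Circle × ℂ | ‖a.2‖ < ρ})).preimage h.bs.continuous using 1
  ext x
  exact ⟨fun ⟨ζ, a, e⟩ => ⟨(u, ζ), mem_ball_zero_iff.1 a,
    e ▸ (h.e1 ((mem_ball_zero_iff.1 a).trans_le hρ)).symm⟩,
    fun ⟨a, c, e⟩ => ⟨a.2, mem_ball_zero_iff.2 c, (h.e2 (c.trans_le hρ) e).2⟩⟩

theorem jc : ContinuousOn (pr b ∘ iz t) (SF t r Φ) := fun _ hp => ((h.p3 hp.2).continuousAt.comp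
  (ld_iz (sg_mem h.r2 hp.1)).contMDiffAt.continuousAt).continuousWithinAt

theorem cov (x : R) : (∃ p ∈ SF t r Φ, iz t p = b (x, 0)) ∨ x ∈ ep b u '' closedBall 0 (r / 2) := by
  rcases cover h.r2 (b (x, 0)) with ⟨p, hp, e⟩ | ⟨a, ha, e⟩
  · exact .inl ⟨p, ⟨hp, e ▸ h.b0 x⟩, e⟩
  · exact .inr ⟨a.2, mem_closedBall_zero_iff.2 ha, (h.e2 (by linarith [h.pos]) e).2⟩

theorem ann (y : Circle) {s : ℝ} (s1 : r / 2 < s) (s2 : s < r) :
    tb t (y, s * u) ∈ SF t r Φ ∧ iz t (tb t (y, s * u)) = t.it σ0 (u, s * y) := by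
  have s0 : 0 < s := h.r2.trans_lt s1
  have n : ∀ y : Circle, ‖(s : ℂ) * y‖ = s := fun y => by
    rw [norm_mul, Circle.norm_coe, mul_one, Complex.norm_of_nonneg s0.le]
  have e := iz_tb (t := t) (a := (u, s * y)) (norm_pos_iff.1 (by rwa [n]))
  rw [mon0, dir_mul s0, n] at e
  exact ⟨⟨(tb_mem (norm_pos_iff.1 (by rwa [n]))).2 (by rwa [n]), e ▸ h.i0 (by rwa [n])⟩, e⟩

theorem conn (hF : IsPreconnected (SF t r Φ)) : IsPreconnected (univ : Set R) := by
  have r0 := h.pos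
  obtain ⟨a1, a2⟩ := h.ann 1 (s := 3 * r / 4) (by linarith) (by linarith)
  have k := (convex_closedBall 0 (3 * r / 4)).isPreconnected.image _ (h.ec (by linarith))
  refine ((hF.image _ h.jc).union _ (mem_image_of_mem _ a1) (by
    rw [comp_apply, a2]; refine mem_image_of_mem (ep b u) ?_; simp [abs_of_pos r0]) k).subset_closure
    (subset_univ _) fun x _ => subset_closure ?_
  rcases h.cov x with ⟨p, hp, e⟩ | e
  · exact .inl ⟨p, hp, (congrArg (pr b) e).trans (h.p1 _)⟩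
  · exact .inr (image_mono (closedBall_subset_closedBall (by linarith)) e)

/-- an essential map which is trivial on the capping disc -/
theorem norm {w₀ : R → Circle} (w1 : Continuous w₀) (w2 : ¬ Lifts w₀ univ) : ∃ w : R → Circle,
    Continuous w ∧ ¬ Lifts w univ ∧ ∀ ζ : ℂ, ‖ζ‖ ≤ 3 * r / 4 → w (ep b u ζ) = 1 := by
  have r0 := h.pos
  have cv := convex_closedBall (0 : ℂ) (3 * r / 4)
  have := cv.contractibleSpace ⟨0, mem_closedBall_self (by positivity)⟩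
  have := cv.locallyPathConnectedSpace
  have c1 : Continuous fun z : closedBall (0 : ℂ) (3 * r / 4) => ep b u z :=
    continuousOn_iff_continuous_domRestrict.1 (h.ec (by linarith))
  obtain ⟨s, hs⟩ := Circle.exp_surjective (w₀ (ep b u 0))
  obtain ⟨l, ⟨-, l1⟩, -⟩ := Circle.isCoveringMap_exp.existsUnique_continuousMap_lifts
    ⟨_, w1.comp c1⟩ ⟨0, mem_closedBall_self (by positivity)⟩ s hs
  obtain ⟨g, g1⟩ := l.exists_extension' (c1.isClosedEmbedding fun a c e => Subtype.ext (h.ei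
    (closedBall_subset_ball (by linarith) a.2) (closedBall_subset_ball (by linarith) c.2) e))
  refine ⟨fun x => w₀ x * Circle.exp (-g x), w1.mul (by fun_prop), fun ⟨m, m1, m2⟩ =>
    w2 ⟨fun x => m x + g x, m1.add g.continuous.continuousOn, fun x a => ?_⟩, fun ζ hζ => ?_⟩
  · rw [Circle.exp_add, ← m2 x a]
    simp only [Circle.exp_neg, inv_mul_cancel_right]
  · have a := congrFun g1 ⟨ζ, mem_closedBall_zero_iff.2 hζ⟩
    have c := congrFun l1 ⟨ζ, mem_closedBall_zero_iff.2 hζ⟩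
    simp only [comp_apply, ContinuousMap.coe_mk] at a c ⊢
    rw [a, ← c, Circle.exp_neg, mul_inv_cancel]

/-- a lift on the uncapped surface extends over the disc -/
theorem lift {w : R → Circle} (w4 : ∀ ζ : ℂ, ‖ζ‖ ≤ 3 * r / 4 → w (ep b u ζ) = 1)
    (hl : Lifts (w ∘ pr b ∘ iz t) (SF t r Φ)) : Lifts w univ := by
  classical
  obtain ⟨m, m1, m2⟩ := hl
  have r0 := h.pos
  have r2 := h.r2
  have T1 : ∀ q ∈ (univ : Set Circle) ×ˢ Ioo (r / 2) (3 * r / 4),
      tb t (q.1, (q.2 : ℝ) * u) ∈ SF t r Φ := fun q a => (h.ann q.1 a.2.1 (by linarith [a.2.2])).1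
  have T2 : ∀ q ∈ (univ : Set Circle) ×ˢ Ioo (r / 2) (3 * r / 4),
      Circle.exp (m (tb t (q.1, (q.2 : ℝ) * u))) = 1 := fun q a => by
    rw [← m2 _ (T1 q a), comp_apply, comp_apply, (h.ann q.1 a.2.1 (by linarith [a.2.2])).2]
    exact w4 _ (by
      rw [norm_mul, Circle.norm_coe, mul_one, Complex.norm_of_nonneg (r2.trans a.2.1.le)]
      exact a.2.2.le)
  have q0 : ((1 : Circle), 5 * r / 8) ∈ (univ : Set Circle) ×ˢ Ioo (r / 2) (3 * r / 4) :=
    ⟨trivial, by linarith, by linarith⟩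
  have T3 := fun q a => Circle.isCoveringMap_exp.constOn_of_comp (isPreconnected_univ.prod
    isPreconnected_Ioo) (m1.comp (fun q a => (ContinuousAt.comp (g := tb t) (contMDiffAt_tb (by
      simpa using (show 0 < q.2 by linarith [a.2.1]).ne')).continuousAt
      (by fun_prop)).continuousWithinAt) T1) (fun q a q' c => (T2 q a).trans (T2 q' c).symm)
      (a := q) a q0
  let p₂ : R → E3 := fun x => invFunOn (iz t) (Out t (r / 2)) (b (x, 0))
  have p1 : ∀ p ∈ Out t (r / 2), invFunOn (iz t) (Out t (r / 2)) (iz t p) = p := fun p hp =>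
    InjOn.leftInvOn_invFunOn (fun p a q c => iz_inj (sg_mem r2 a) (sg_mem r2 c)) hp
  let n : R → ℝ := fun x => if x ∈ ep b u '' ball 0 (3 * r / 4) then
    m (tb t (1, (5 * r / 8 : ℝ) * u)) else m (p₂ x)
  have n1 : ∀ x, ∀ p ∈ SF t r Φ, iz t p = b (x, 0) → n x = m (p₂ x) ∧ p₂ x = p := fun x p hp e => by
    have e1 : p₂ x = p := by simp only [p₂]; rw [← e, p1 p hp.1]
    refine ⟨?_, e1⟩
    simp only [n]
    split_ifs with a
    · obtain ⟨ζ, a, rfl⟩ := a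
      rw [mem_ball_zero_iff] at a
      obtain ⟨c, d⟩ := iz_eq_it (sg_mem r2 hp.1) (e.trans (h.e1 (by linarith)))
      have := (tb_mem (mon_ne _ _ _ _ c)).1 (d ▸ hp.1)
      rw [norm_mon] at this
      rw [e1, ← d, mon0]
      exact (T3 (dir ζ, ‖ζ‖) ⟨trivial, this, a⟩).symm
    · rfl
  refine ⟨n, (continuous_iff_continuousAt.2 fun x => ?_).continuousOn, fun x _ => ?_⟩
  · by_cases a : x ∈ ep b u '' ball 0 (3 * r / 4)
    · exact continuousAt_const.congr (mem_of_superset ((h.eo (by linarith)).mem_nhds a)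
        fun y hy => (if_pos hy).symm)
    have c := ((isCompact_closedBall 0 (r / 2)).image_of_continuousOn
      (h.ec (by linarith))).isClosed.isOpen_compl.mem_nhds
        (mt (image_mono (closedBall_subset_ball (by linarith)) ·) a)
    obtain ⟨p, hp, e⟩ := (h.cov x).resolve_right (mem_of_mem_nhds c)
    have d : ContinuousAt p₂ x := ContinuousAt.comp (g := invFunOn (iz t) (Out t (r / 2))) (by
      rw [← e]
      exact (contMDiffAt_of_comp (g := invFunOn (iz t) (Out t (r / 2))) (ld_iz (sg_mem r2 hp.1))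
        (contMDiffAt_id.congr_of_eventuallyEq
          (mem_of_superset ((isOpen_Out _ _).mem_nhds hp.1) p1))).continuousAt)
      h.bs.continuous.continuousAt
    refine ((m1 _ ((n1 x p hp e).2 ▸ hp)).tendsto.comp (tendsto_nhdsWithin_iff.2 ⟨d, ?_⟩)).congr'
      ?_ |>.trans_eq (by rw [(n1 x p hp e).1])
    · filter_upwards [c] with y hy
      obtain ⟨p, hp, e⟩ := (h.cov y).resolve_right hy
      exact (n1 y p hp e).2 ▸ hp
    · filter_upwards [c] with y hy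
      obtain ⟨p, hp, e⟩ := (h.cov y).resolve_right hy
      exact (n1 y p hp e).1.symm
  · rcases h.cov x with ⟨p, hp, e⟩ | ⟨ζ, a, rfl⟩
    · rw [(n1 x p hp e).1, (n1 x p hp e).2, ← m2 p hp, comp_apply, comp_apply, e, h.p1]
    · rw [mem_closedBall_zero_iff] at a
      rw [w4 ζ (by linarith), show n _ = _ from if_pos ⟨ζ, mem_ball_zero_iff.2 (by linarith), rfl⟩,
        T2 _ q0]

/-- the certificate -/
theorem gc {w₀ : R → Circle} (w1 : Continuous w₀) (w2 : ¬ Lifts w₀ univ) :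
    ∃ w L, Gc (SF t r Φ) w L := by
  obtain ⟨w, w3, w5, w4⟩ := h.norm w1 w2
  have r0 := h.pos
  have r2 := h.r2
  have K : IsCompact (sg t ⁻¹' (otube t (3 * r / 4))ᶜ) :=
    ((isOpenEmbedding_sg t).isInducing.isCompact_preimage_iff (by
      rw [range_sg]
      rintro _ a rfl
      exact a (τ_mem_otube.2 (by simpa using r0)))).2 (isOpen_otube _ _).isClosed_compl.isCompact
  have K1 : sg t ⁻¹' (otube t (3 * r / 4))ᶜ ⊆ Out t (r / 2) := fun p a ⟨z, c, e⟩ =>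
    a ⟨z, (show ‖z.2‖ ≤ r / 2 from c).trans_lt (by linarith), e⟩
  refine ⟨w ∘ pr b ∘ iz t, sg t ⁻¹' (otube t (3 * r / 4))ᶜ ∩ (Φ ∘ iz t) ⁻¹' {-1},
    K.of_isClosed_subset (ContinuousOn.preimage_isClosed_of_isClosed (fun p hp =>
      (h.cont.continuousAt.comp
        (ld_iz (sg_mem r2 (K1 hp))).contMDiffAt.continuousAt).continuousWithinAt)
      K.isClosed isClosed_singleton) inter_subset_left, fun p hp => ⟨K1 hp.1, hp.2⟩,
    w3.comp_continuousOn h.jc, fun p hp hn => ?_, fun a => w5 (h.lift w4 a)⟩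
  obtain ⟨z, z1, z2⟩ : sg t p ∈ otube t (3 * r / 4) := not_not.1 fun a => hn ⟨a, hp.2⟩
  have z0 : z.2 ≠ 0 := t.τ_mem_Ext.1 (z2 ▸ sg_mem r2 hp.1)
  have e := iz_tb (t := t) (mon_ne 1 0 0 1 z0)
  rw [mon_mon _ _ _ _ _ _ _ _ z0] at e
  norm_num [mon_id, tb_of_sg z2.symm] at e
  have n : ‖(mon 1 0 0 1 z).2‖ < 3 * r / 4 := by rwa [norm_mon]
  rw [comp_apply, comp_apply, ← (h.e2 (by linarith) (e.symm.trans (h.p2 hp.2).symm)).2]
  exact w4 _ n.le

end Bx

end Crest.Agent.X212.Dic6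
end
end

-- ▼ part X212/Dic6/Main

/-!
# Row 212, level zero (helper6): DIC, genus certificate or unknot
-/

set_option autoImplicit false
set_option linter.unusedSectionVars false

open Set Filter Topology Function Metric
open scoped ContDiff Manifold
open Crest.GeometryTopology.DehnSurgery Crest.Agent.X212.Glue52 Crest.Agent.X212.Ext52
open Crest.Agent.X212.Sm10 Crest.Agent.X212.Hel40 Crest.Agent.X212.Cab39 Crest.Agent.X212.St29
open Crest.Agent.X212.Sep15 (CM Box)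

noncomputable section

namespace Crest.Agent.X212.Dic6

/-- shrinking `ℂ × ℝ` to a thin neighbourhood of the unit disc -/
theorem exists_shrink {N : Set (ℂ × ℝ)} (hN : IsOpen N) (h : closedBall 0 1 ×ˢ {0} ⊆ N) :
    ∃ κ : ℂ × ℝ → ℂ × ℝ, IsOpenEmbedding κ ∧ range κ ⊆ N ∧ ∀ z ∈ sphere (0 : ℂ) 1, κ (z, 0) = (z, 0) := by
  obtain ⟨e, e0, he⟩ := ((isCompact_closedBall (0 : ℂ) 1).prod
    (isCompact_singleton (x := (0 : ℝ)))).exists_thickening_subset_open hN h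
  have u : ∀ (E : Type) [NormedAddCommGroup E] [NormedSpace ℝ E] (a b : ℝ), a ≠ 0 → b ≠ 0 →
      IsOpenEmbedding fun x : E => a • OpenPartialHomeomorph.univUnitBall (b • x) :=
    fun E _ _ a b ha hb => ((Homeomorph.smulOfNeZero a ha).isOpenEmbedding.comp
      (OpenPartialHomeomorph.univUnitBall.isOpenEmbedding rfl)).comp
        (Homeomorph.smulOfNeZero b hb).isOpenEmbedding
  have n : ∀ (E : Type) [NormedAddCommGroup E] [NormedSpace ℝ E] (a : ℝ) (x : E), 0 < a →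
      ‖a • OpenPartialHomeomorph.univUnitBall x‖ < a := fun E _ _ a x ha => by
    rw [norm_smul, Real.norm_of_nonneg ha.le]
    exact mul_lt_of_lt_one_right ha (mem_ball_zero_iff.1
      (OpenPartialHomeomorph.univUnitBall.map_source (mem_univ x)))
  have s0 : 0 < √((1 + e) ^ 2 - 1) := Real.sqrt_pos.2 (by nlinarith)
  refine ⟨_, (u ℂ (1 + e) (√((1 + e) ^ 2 - 1))⁻¹ (by positivity) (by positivity)).prodMap
    (u ℝ e 1 e0.ne' one_ne_zero), ?_, fun z hz => Prod.ext ?_ (by simp)⟩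
  · rintro _ ⟨p, rfl⟩
    have a := n ℂ (1 + e) ((√((1 + e) ^ 2 - 1))⁻¹ • p.1) (by positivity)
    rw [← mem_ball_zero_iff, add_comm 1 e, ← thickening_closedBall e0 zero_le_one] at a
    obtain ⟨w, w1, w2⟩ := mem_thickening_iff.1 a
    refine he (mem_thickening_iff.2 ⟨(w, 0), ⟨w1, rfl⟩, max_lt (by rwa [add_comm 1 e]) ?_⟩)
    simpa using n ℝ e ((1 : ℝ) • p.2) e0
  · have h1 : (√((1 + e) ^ 2 - 1)) ^ 2 = (1 + e) ^ 2 - 1 := Real.sq_sqrt (by nlinarith)
    set s := √((1 + e) ^ 2 - 1)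
    have h2 : √(1 + s⁻¹ ^ 2) = (1 + e) / s := by
      rw [show 1 + s⁻¹ ^ 2 = ((1 + e) / s) ^ 2 by field_simp; linarith, Real.sqrt_sq (by positivity)]
    simp only [Prod.map, OpenPartialHomeomorph.univUnitBall_apply, norm_smul,
      mem_sphere_zero_iff_norm.1 hz, mul_one, norm_inv, Real.norm_of_nonneg s0.le, h2, smul_smul]
    rw [show (1 + e) * (((1 + e) / s)⁻¹ * s⁻¹) = 1 by field_simp, one_smul]

variable {t : Tube} {r : ℝ} {R : CM 2} [Nonempty R] {b : R × ℝ → Yz t} {Φ : Yz t → Circle}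
  {u : Circle}

theorem Bx.ld (h : Bx t r b Φ u) {ζ : ℂ} (a : ‖ζ‖ < r) :
    IsLocalDiffeomorphAt 𝓘(ℝ, ℂ) (𝓡 2) ∞ (ep b u) ζ := by
  have hi := leftInverse_invFun (t.two σ0).inr_injective
  have k : ∀ y ∈ ball (0 : ℂ) r, (invFun (t.it σ0) (b (ep b u y, 0))).2 = y := fun y c => by
    rw [h.e1 (mem_ball_zero_iff.1 c), hi]
  refine ld_of_inverse (g := fun x => (invFun (t.it σ0) (b (x, 0))).2) isOpen_ball (h.eo le_rfl)
    (mem_ball_zero_iff.2 a) (fun z c => (h.es (mem_ball_zero_iff.1 c)).contMDiffWithinAt) ?_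
    (mapsTo_image _ _) ?_ k ?_ <;> rintro _ ⟨y, c, rfl⟩
  · have := contMDiffAt_of_comp (g := invFun (t.it σ0)) ((t.two σ0).ld_inr (u, y))
      (contMDiffAt_id.congr_of_eventuallyEq (.of_forall hi))
    rw [show (t.two σ0).inr (u, y) = _ from (h.e1 (mem_ball_zero_iff.1 c)).symm] at this
    exact (this.comp (ep b u y) (h.bs _)).snd.contMDiffWithinAt
  · exact mem_of_eq_of_mem (k y c) c
  · exact congrArg _ (k y c)

/-- the planar case -/
theorem Bx.unk (hS : SchStmt) (hU : UnkStmt) (h : Bx t r b Φ u) {D : ℂ → R}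
    (hD : IsLocalDiffeomorph 𝓘(ℝ, ℂ) (𝓡 2) ∞ D) (hi : Injective D)
    (hL : (ep b u '' ball 0 (r / 4))ᶜ ⊆ range D) : t.thick.IsUnknot := by
  have r0 := h.pos
  have r3 := half_pos r0
  have n : ∀ z : ℂ, ‖(r / 2 : ℝ) • z‖ = r / 2 * ‖z‖ := fun z => by
    rw [norm_smul, Real.norm_of_nonneg h.r2]
  have lt : ∀ z : ℂ, ‖z‖ < 2 → ‖(r / 2 : ℝ) • z‖ < r := fun z c => by rw [n]; nlinarith
  have m : ∀ z : ℂ, 1 / 2 < ‖z‖ → ‖z‖ < 2 →
      D (invFun D (ep b u ((r / 2 : ℝ) • z))) = ep b u ((r / 2 : ℝ) • z) := fun z a c =>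
    invFun_eq (hL fun ⟨w, w1, w2⟩ => by
      have := h.ei (ball_subset_ball (by linarith) w1) (mem_ball_zero_iff.2 (lt z c)) w2
      rw [this, mem_ball_zero_iff, n] at w1
      nlinarith)
  obtain ⟨g, g1, g2⟩ := hS (fun z => invFun D (ep b u ((r / 2 : ℝ) • z))) (1 / 2) 2 (by norm_num)
    (by norm_num) (by norm_num) (fun z a w c e => smul_right_injective ℂ r3.ne' (h.ei
      (mem_ball_zero_iff.2 (lt z a.2)) (mem_ball_zero_iff.2 (lt w c.2))
      ((m z a.1 a.2).symm.trans ((congrArg D e).trans (m w c.1 c.2))))) fun z a c => by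
      have a1 : IsLocalDiffeomorphAt 𝓘(ℝ, ℂ) 𝓘(ℝ, ℂ) ∞ (fun z : ℂ => (r / 2 : ℝ) • z) z :=
        ld_of_inverse (g := fun z : ℂ => (r / 2 : ℝ)⁻¹ • z) isOpen_univ isOpen_univ trivial
          (contMDiffOn_iff_contDiffOn.2 (by fun_prop)) (contMDiffOn_iff_contDiffOn.2 (by fun_prop))
          (mapsTo_univ _ _) (mapsTo_univ _ _) (fun y _ => inv_smul_smul₀ r3.ne' y)
          fun y _ => smul_inv_smul₀ r3.ne' y
      have a2 := ld_of_comp (g := invFun D) (hD (invFun D (ep b u ((r / 2 : ℝ) • z))))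
        (ld_congr (ld_id _) (.of_forall (leftInverse_invFun hi)))
      rw [m z a c] at a2
      exact (a1.comp _ _ (h.ld (lt z c))).comp _ _ a2
  have E1 : IsOpenEmbedding (D ∘ g) := (ld_isOpenEmbedding hD hi).comp g1
  have E2 : (D ∘ g) '' sphere 0 1 = (fun z => ep b u ((r / 2 : ℝ) • z)) '' sphere 0 1 := by
    rw [image_comp, g2, image_image]
    exact image_congr fun z a => m z (by rw [mem_sphere_zero_iff_norm.1 a]; norm_num)
      (by rw [mem_sphere_zero_iff_norm.1 a]; norm_num)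
  have E3 : ∀ w ∈ ball (0 : ℂ) (r / 2), ∀ z ∈ closedBall (0 : ℂ) 1, (D ∘ g) z = ep b u w →
      z ∈ ball (0 : ℂ) 1 := fun w a z c e => by
    by_contra d
    obtain ⟨y, y1, y2⟩ : (D ∘ g) z ∈ _ := E2.le (mem_image_of_mem _
      (le_antisymm c (not_lt.1 d) : z ∈ sphere 0 1))
    have y3 := mem_sphere_zero_iff_norm.1 y1
    rw [← h.ei (mem_ball_zero_iff.2 (lt y (by rw [y3]; norm_num))) (ball_subset_ball (by linarith) a)
      (y2.trans e), mem_ball_zero_iff, n, y3] at a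
    linarith
  have E4 : ep b u 0 ∉ (D ∘ g) '' closedBall 0 1 := fun ⟨z, c, e⟩ => by
    have k := ((convex_ball 0 (r / 2)).isPreconnected.image _ ((h.ec (half_lt_self r0)).mono
      ball_subset_closedBall)).subset_left_of_subset_union (E1.isOpenMap _ isOpen_ball)
      ((isCompact_closedBall 0 1).image E1.continuous).isClosed.isOpen_compl
      (disjoint_compl_right.mono_left (image_mono ball_subset_closedBall)) (by
        rintro _ ⟨w, a, rfl⟩
        by_cases d : ep b u w ∈ (D ∘ g) '' closedBall 0 1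
        · obtain ⟨y, y1, y2⟩ := d
          exact .inl ⟨y, E3 w a y y1 y2, y2⟩
        · exact .inr d) ⟨_, mem_image_of_mem _ (mem_ball_self r3),
          e ▸ mem_image_of_mem _ (E3 0 (mem_ball_self r3) z c e)⟩
    refine noncompact_univ ℂ (((ld_isOpenEmbedding hD hi).isInducing.isCompact_preimage_iff
      (K := univ) fun x _ => ?_).2 isCompact_univ)
    by_cases d : x ∈ ep b u '' ball 0 (r / 4)
    · obtain ⟨y, -, y2⟩ := k (image_mono (ball_subset_ball (by linarith)) d)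
      exact ⟨_, y2⟩
    · exact hL d
  have B : IsOpenEmbedding (b ∘ Prod.map (D ∘ g) id) :=
    h.box.isOpenEmbedding.comp (E1.prodMap .id)
  have I := (t.two σ0).isOpenEmbedding_inl
  obtain ⟨κ, κ1, κ2, κ3⟩ := exists_shrink (I.isOpen_range.preimage B.continuous) (by
    rintro ⟨z, _⟩ ⟨c, rfl⟩
    refine ((t.two σ0).surj _).elim id fun ⟨a, e⟩ => ?_
    rw [mem_preimage, ← e]
    refine (t.mem_range_ie σ0).2 fun a0 => E4 ⟨z, c, ?_⟩
    rw [← a0]
    exact (h.e2 (by rwa [a0, norm_zero]) e).2.symm)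
  have : Nonempty t.Ext := ⟨⟨_, (t.τ_mem_Ext (z := (1, 1))).2 one_ne_zero⟩⟩
  have j : t.ie σ0 ∘ invFun (t.ie σ0) ∘ (b ∘ Prod.map (D ∘ g) id) ∘ κ =
      (b ∘ Prod.map (D ∘ g) id) ∘ κ := funext fun p => invFun_eq (κ2 ⟨p, rfl⟩)
  have c : ∀ y : Circle, ‖(r / 2 : ℝ) • (y : ℂ)‖ = r / 2 := fun y => by rw [n, Circle.norm_coe, mul_one]
  have d : ∀ (y : Circle) (z : ℂ), z ∈ sphere (0 : ℂ) 1 → (D ∘ g) z = ep b u ((r / 2 : ℝ) • (y : ℂ)) →
      ((invFun (t.ie σ0) (b (Prod.map (D ∘ g) id (κ (z, 0)))) : t.Ext) : S3) =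
        t.τ (y, (r / 2 : ℝ) * u) := fun y z a e => by
    have := congrFun j (z, 0)
    simp only [comp_apply] at this e ⊢
    rw [κ3 z a] at this ⊢
    simp only [Prod.map, comp_apply, id, e, h.e1 ((c y).trans_lt (half_lt_self r0))] at this ⊢
    rw [← ((ie_eq_it0 t).1 this).2, mon0, c, Complex.real_smul, dir_mul r3]
  refine hU t ((r / 2 : ℝ) * u) (Subtype.val ∘ invFun (t.ie σ0) ∘ (b ∘ Prod.map (D ∘ g) id) ∘ κ)
    (t.Ext.isOpen.isOpenEmbedding_subtypeVal.comp (.of_comp _ I (j.symm ▸ B.comp κ1 :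
      IsOpenEmbedding (t.ie σ0 ∘ _))))
    (Subset.antisymm ?_ ?_)
  · rintro _ ⟨⟨z, _⟩, ⟨a, rfl⟩, rfl⟩
    obtain ⟨y, y1, y2⟩ : (D ∘ g) z ∈ _ := E2.le (mem_image_of_mem _ a)
    exact ⟨(⟨y, y1⟩, _), ⟨trivial, rfl⟩, (d ⟨y, y1⟩ z a y2.symm).symm⟩
  · rintro _ ⟨⟨y, _⟩, ⟨-, rfl⟩, rfl⟩
    obtain ⟨z, z1, z2⟩ : _ ∈ (D ∘ g) '' sphere 0 1 := E2.ge (mem_image_of_mem _ y.2)
    exact ⟨(z, 0), ⟨z1, rfl⟩, d y z z1 z2⟩

theorem dic (hB : BoxStmt) (hS : SchStmt) (hU : UnkStmt) : DicStmt := by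
  intro k r V ψ M h hk
  obtain ⟨R, oR, b, Φ, u, hO, hb, Φ0, rg, ang, Φ1, Φ2⟩ := exists_box hB h
  have r0 := h.pos
  have h1 : Bx k.toTube r b Φ (-1 * u⁻¹) := ⟨r0, hb, Φ0, rg, ang, fun a c => by
    rw [Φ2 a c, eq_mul_inv_iff_mul_eq]⟩
  have e : SF k.toTube r Φ = Sei k r ψ := Set.ext fun p => and_congr_right fun a => by
    rw [Φ1 p (Out_mono (by linarith) a)]
  have : Nonempty R := by
    obtain ⟨p, -⟩ : k.it σ0 (-1 * u⁻¹, 0) ∈ range b := by
      rw [rg, mem_ofPred_eq, (h1.it _ (by simpa using r0)).2 rfl]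
      exact fun e => by have := congrArg (fun z : Circle => (z : ℂ).re) e; norm_num at this
    exact ⟨p.1⟩
  rcases plan (Orx52.sf hO) (h1.conn (e ▸ h.c1)) with ⟨w₀, w1, w2⟩ | hp
  · exact e ▸ h1.gc w1 w2
  · obtain ⟨D, D1, D2⟩ := hp (ep b (-1 * u⁻¹) 0) _ (h1.eo (ρ := r / 4)
      (by linarith)).isClosed_compl.isCompact fun a => a ⟨0, mem_ball_self (by positivity), rfl⟩
    exact (hk (h1.unk hS hU (fun z => ((Orx52.pm_C_iff hO).1 (D1.1 z)).1) D1.2 D2)).elim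

end Crest.Agent.X212.Dic6
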